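import Vale.Agent.P287T.Per.St
import Vale.Agent.P287T.Sw.NoWall

/-!
# The Mukai lattice of a cubic fourfold and the abstract propagation problem

A class is a pair `(a, n)`: an Eisenstein integer and a primitive class of degree four.
-/

noncomputable section

namespace Vale.Agent.P287T.Top

open Set Filter Topology Metric MvPolynomial P291Z P269 P269.Hdg P287Q P287Q.Cub P287Q.Zc
  P287T.Per
open scoped ComplexConjugate

/-- the cube root of unity `exp (2 π i / 3)` -/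
def om : ℂ := ⟨-1 / 2, √3 / 2⟩

/-- the Eisenstein integer `u₀ + u₁ ω + u₂ ω²` -/
def eis (u : Fin 3 → ℤ) : ℂ := u 0 + u 1 * om + u 2 * om ^ 2

/-- the integral over the cubic fourfold -/
abbrev JF (F : MP 5) : H (XF F) →ₗ[ℂ] ℂ := Loc.intg (βF F)

/-- classes -/
abbrev Cls (F : MP 5) : Type := ℂ × H (XF F)

variable {F F' : MP 5}

/-- the Mukai pairing -/
def mk (v w : Cls F) : ℂ := 2 / 3 * ((conj v.1 * w.1).re : ℂ) - JF F (v.2 * w.2)

variable (F) in
/-- the primitive part of a class of degree four -/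
def pr (x : H (XF F)) : H (XF F) := x - (JF F (x * hyp F ^ 2) / 3) • hyp F ^ 2

theorem eis_add (u u' : Fin 3 → ℤ) : eis (u + u') = eis u + eis u' := by
  simp only [eis, Pi.add_apply, Int.cast_add]; ring

theorem eis_neg (u : Fin 3 → ℤ) : eis (-u) = -eis u := by
  simp only [eis, Pi.neg_apply, Int.cast_neg]; ring

theorem eis_zero : eis 0 = 0 := by simp [eis]

theorem pr_add (x y : H (XF F)) : pr F (x + y) = pr F x + pr F y := by
  simp only [pr, add_mul, map_add, add_div, add_smul]; abel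

theorem pr_neg (x : H (XF F)) : pr F (-x) = -pr F x := by
  simp only [pr, neg_mul, map_neg, neg_div, neg_smul]; abel

theorem pr_zero : pr F 0 = 0 := by simp [pr]

variable (F) in
/-- **The Mukai lattice.** -/
def LT : AddSubgroup (Cls F) where
  carrier := {v | ∃ x ∈ Lk (XF F) 4, ∃ u : Fin 3 → ℤ,
    ((u 0 + u 1 + u 2 : ℤ) : ℂ) = JF F (x * hyp F ^ 2) ∧ v = (eis u, pr F x)}
  zero_mem' := ⟨0, zero_mem _, 0, by simp, by rw [eis_zero, pr_zero]; rfl⟩
  add_mem' := by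
    rintro _ _ ⟨x, hx, u, hu, rfl⟩ ⟨y, hy, u', hu', rfl⟩
    refine ⟨x + y, add_mem hx hy, u + u', ?_, by rw [eis_add, pr_add]; rfl⟩
    rw [add_mul, map_add, ← hu, ← hu']
    simp only [Pi.add_apply]; push_cast; ring
  neg_mem' := by
    rintro _ ⟨x, hx, u, hu, rfl⟩
    refine ⟨-x, neg_mem hx, -u, ?_, by rw [eis_neg, pr_neg]; rfl⟩
    rw [neg_mul, map_neg, ← hu]
    simp only [Pi.neg_apply]; push_cast; ring

variable (F) in
/-- the first root, `1 - ω` -/
def l1 : Cls F := (eis ![1, -1, 0], 0)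

variable (F) in
/-- the second root, `ω - ω²` -/
def l2 : Cls F := (eis ![0, 1, -1], 0)

/-- the pairings of the Eisenstein integer `a` with the two roots are `p1`, `p2` -/
def Pq (a : ℂ) (p1 p2 : ℤ) : Prop := ∃ u : Fin 3 → ℤ, a = eis u ∧ p1 = u 0 - u 1 ∧ p2 = u 1 - u 2

/-- a primitive vector of the Eisenstein lattice -/
def PrimA (a : ℂ) : Prop := ∃ p1 p2, Pq a p1 p2 ∧ IsCoprime p1 p2

/-- classes of Hodge type -/
def Hdg (v : Cls F) : Prop := v.2 ∈ TT F 2 2

/-- `w` lies in `A2 + ℤ v` -/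
def In1 (v w : Cls F) : Prop := ∃ r1 r2 j : ℤ, w = r1 • l1 F + r2 • l2 F + j • v

/-- `w` lies in `A2 + ℤ o + ℤ n` -/
def In2 (o n w : Cls F) : Prop := ∃ r1 r2 j z : ℤ, w = r1 • l1 F + r2 • l2 F + j • o + z • n

/-- **Nodes**: isotropic, primitive charge, `A2 + ℤ v` saturated of discriminant at least `14`. -/
structure Node (v : Cls F) : Prop where
  mem : v ∈ LT F
  iso : mk v v = 0
  prim : PrimA v.1
  sat : ∀ w ∈ LT F, ∀ k : ℤ, k ≠ 0 → In1 v (k • w) → In1 v w
  big : 7 ≤ Complex.normSq v.1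

/-- The hypotheses of a switch from `o` to `n`. -/
structure SwHyp (o n : Cls F) : Prop where
  no : Node o
  nn : Node n
  ho : Hdg o
  hn : Hdg n
  pair : mk o n = -1
  gen : ∀ w ∈ LT F, Hdg w → In2 o n w
  far : ∃ p1 p2 q1 q2, Pq o.1 p1 p2 ∧ Pq n.1 q1 q2 ∧ (Sw.Far p1 p2 q1 q2 ∨ Sw.Far q1 q2 p1 p2)
  ori : (conj o.1 * n.1).im < 0

/-- transport of classes along a continuous map -/
def tr (φ : C(XF F, XF F')) (v : Cls F') : Cls F := (v.1, H.map φ v.2)

/-- the parameter space of all cubic forms -/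
abbrev T3 : Type := EuclideanSpace ℂ ((Finset.univ : Finset (Fin 6)).finsuppAntidiag 3)

/-- the cubic form with the given coefficients -/
def p3 : T3 →ₗ[ℂ] MP 5 where
  toFun t := ∑ m, monomial m.1 (t m)
  map_add' _ _ := by simp [Finset.sum_add_distrib]
  map_smul' _ _ := by simp [Finset.smul_sum, smul_monomial]

/-- In the chart `k`, the property `P` holds at the point `t` for the flat class `v`. -/
def At (P : ∀ F : MP 5, Cls F → Prop) {h : Sm F} {r : ℝ} {Φ : T3 → V → V} {σ : T3 → H (XF F)}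
    {η : T3 → T3 →ₗ[ℂ] H (XF F)} (k : PM h p3 r Φ σ η) (v : Cls F) (t : T3) : Prop :=
  ∃ (ht : t ∈ ball 0 r) (v' : Cls (F + p3 t)), tr (k.tr t ht).φ v' = v ∧ P (F + p3 t) v'

/-- **The input of the propagation.** -/
structure Sys (P : ∀ F : MP 5, Cls F → Prop) : Prop where
  opn : ∀ {F} {h : Sm F} {r Φ σ η} (k : PM h p3 r Φ σ η) (v : Cls F), Node v → ∀ t₀, At P k v t₀ →
    ∀ᶠ t in 𝓝 t₀, JF F (v.2 * σ t) = 0 → At P k v t
  cls : ∀ {F} {h : Sm F} {r Φ σ η} (k : PM h p3 r Φ σ η) (v : Cls F), Node v →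
    ∀ (t : ℕ → T3), ∀ t₀ ∈ ball (0 : T3) r, Tendsto t atTop (𝓝 t₀) → (∀ n, At P k v (t n)) →
      At P k v t₀
  hdg : ∀ {F}, Sm F → ∀ v, P F v → Hdg v
  sw : ∀ {F}, Sm F → ∀ o n : Cls F, SwHyp o n → P F o → P F n
  rot : ∀ {F}, Sm F → ∀ v : Cls F, P F v → P F (om * v.1, v.2)
  neg : ∀ {F}, Sm F → ∀ v : Cls F, P F v → P F (-v)
  base : ∃ F, Sm F ∧ ∃ v : Cls F, Node v ∧ P F v

/-- **CHAIN** -/
def CHAIN : Prop := ∀ P : ∀ F : MP 5, Cls F → Prop, Sys P →
  ∀ F, Sm F → ∀ v : Cls F, Node v → Hdg v → P F v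

/-- **ENTRY** -/
def ENTRY : Prop := ∀ F, Sm F → ∀ d : ℤ, Lab F d → Lat.Adm d → 6 < d →
  ∃ v : Cls F, Node v ∧ Hdg v

theorem J_eq (h : Sm F) : h.J = JF F := rfl

theorem p3_hom (t : T3) : (p3 t).IsHomogeneous 3 :=
  IsHomogeneous.sum _ _ _ fun m _ => isHomogeneous_monomial _ (by
    have := (Finset.mem_finsuppAntidiag.1 m.2).1
    rw [Finsupp.degree_eq_sum]; exact this)

theorem p3_onto (A : MP 5) (hA : A.IsHomogeneous 3) : ∃ w, p3 w = A := by
  refine ⟨WithLp.toLp 2 fun m => coeff m.1 A, ?_⟩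
  change ∑ m : ((Finset.univ : Finset (Fin 6)).finsuppAntidiag 3), monomial m.1 (coeff m.1 A) = A
  rw [Finset.sum_coe_sort _ (fun m => monomial m (coeff m A))]
  refine (Finset.sum_subset (s₁ := A.support) (fun m hm => ?_) (fun m _ hm => ?_)).symm.trans
    (as_sum A).symm
  · refine Finset.mem_finsuppAntidiag.2 ⟨?_, Finset.subset_univ _⟩
    have := hA (mem_support_iff.1 hm)
    rw [Finsupp.weight_apply, Finsupp.sum_fintype _ _ (by simp)] at this
    simpa using this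
  · rw [notMem_support_iff.1 hm, map_zero]

end Vale.Agent.P287T.Top
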