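import Vale.Agent.P287T.Cl.St
import Vale.Agent.P287T.Sw.Ht4
import Vale.Agent.P287T.Sw.Ht5
import Vale.Agent.P287T.Au.Defs

/-!
# Realised classes: the predicate of the propagation and the statements about one family
-/

noncomputable section

namespace Vale.Agent.P287T.Top

open Set Filter Topology Metric P291Z P269 P287Q P287Q.Cub P287T.Cy P287T.Rr P287T.G3 P287T.Cl
  P287T.Sw P287T.Au P287T.Per

variable {F : S6}

/-- `E` is semistable of phase `φ` and class `v` -/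
def QE (c : Cu F) (φ : ℝ) (v : Cls F) (E : HM F) : Prop := (sgW c).P φ E ∧ clE c E = v

/-- the class `v` is realised by a semistable object -/
def PP (F : S6) (v : Cls F) : Prop := ∃ (c : Cu F) (φ : ℝ) (E : HM F), QE c φ v E

/-- `QE` for raw matrices -/
def QQ (c : Cu F) (φ : ℝ) (v : Cls F) : Au.Pr := fun _ _ _ p d =>
  ∃ h : IsMF F p d, QE c φ v (ofRaw h)

/-- the members of a family -/
def Mem (C : Cf F) : Type :=
  {x : (Fin C.ν → ℂ) × Matrix C.ι C.ι S6 // x.1 ∈ C.Z ∧ x.2 ∈ C.O x.1}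

theorem Mem.mf {C : Cf F} (x : Mem C) : IsMF F C.p x.1.2 := (C.orb _ x.2.1).mf _ x.2.2

/-- a member of a family as an object -/
def ob (C : Cf F) (x : Mem C) : HM F := ofRaw x.mf

theorem mem_ne (C : Cf F) : Nonempty (Mem C) :=
  let ⟨z, hz⟩ := C.cn.nonempty
  let ⟨d, hd⟩ := (C.orb z hz).ne
  ⟨⟨(z, d), hz, hd⟩⟩

theorem qe_ob {c : Cu F} {φ : ℝ} {v : Cls F} {C : Cf F} (h : C.All (QQ c φ v)) (x : Mem C) :
    QE c φ v (ob C x) := (h _ x.2.1 _ x.2.2).2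

/-- **MOD** (DEF, OP, PAD, PROJ): the projective moduli surface. -/
def StFam : Prop := ∀ (F : S6) (c : Cu F) (φ : ℝ) (v : Cls F) (E : HM F), Node v → QE c φ v E →
  ∃ C : Cf F, C.All (QQ c φ v)

/-- **SPAN** (FM): the members of the family detect zero objects. -/
def StSpan : Prop := ∀ (F : S6) (c : Cu F) (φ : ℝ) (v : Cls F) (C : Cf F), Node v →
  C.All (QQ c φ v) → Span (ob C)

/-- **PSI**: the realisation of a class by a line bundle. -/
def StPsi : Prop := ∀ (F : S6) (c : Cu F) (φ : ℝ) (v : Cls F) (C : Cf F), Node v →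
  C.All (QQ c φ v) → ∀ y ∈ LT F, Hdg y → mk y v = -1 → mk y y = -2 →
    ∃ G : HM F, clE c G = y ∧ Lb (ob C) G

/-- **SW** -/
def StSw : Prop := ∀ {F : S6}, Per.Sm F → ∀ o n : Cls F, SwHyp o n → PP F o → PP F n

/-- **OC**, openness -/
def StOpn : Prop := ∀ {F : S6} {h : Per.Sm F} {r Φ σ η} (k : PM h p3 r Φ σ η) (v : Cls F), Node v →
  ∀ t₀, At PP k v t₀ → ∀ᶠ t in 𝓝 t₀, JF F (v.2 * σ t) = 0 → At PP k v t

/-- **OC**, closedness -/
def StCls : Prop := ∀ {F : S6} {h : Per.Sm F} {r Φ σ η} (k : PM h p3 r Φ σ η) (v : Cls F), Node v →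
  ∀ (t : ℕ → T3), ∀ t₀ ∈ ball (0 : T3) r, Tendsto t atTop (𝓝 t₀) → (∀ n, At PP k v (t n)) →
    At PP k v t₀

/-- **BASE** -/
def StBase : Prop := ∃ F : S6, Per.Sm F ∧ ∃ v : Cls F, Node v ∧ PP F v

theorem QE.tw (ha : StAdd) {c : Cu F} {φ : ℝ} {v : Cls F} {E : HM F} (h : QE c φ v E) :
    QE c (φ + 1 / 3) (-(om ^ 2 * v.1, v.2)) (tw ((mvCtx 6).en 1) E) := by
  refine ⟨?_, by rw [(ha c).2.1, h.2]⟩
  have := (sig F c.hom c.sm).twP ((mvCtx 6).en 1) φ E h.1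
  rwa [GCtx.chΓ_en, Int.cast_one] at this

theorem PP.tw (ha : StAdd) {v : Cls F} (h : PP F v) : PP F (-(om ^ 2 * v.1, v.2)) :=
  let ⟨c, _, _, k⟩ := h
  ⟨c, _, _, k.tw ha⟩

theorem PP.rot (ha : StAdd) {v : Cls F} (h : PP F v) : PP F (om * v.1, v.2) := by
  have := (h.tw ha).tw ha
  rwa [show (-(om ^ 2 * (-(om ^ 2 * v.1, v.2) : Cls F).1, (-(om ^ 2 * v.1, v.2) : Cls F).2) :
    Cls F) = (om * v.1, v.2) from Prod.ext (by
      simp only [Prod.fst_neg]; linear_combination om * v.1 * om_cube) (by simp)] at this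

theorem PP.neg (ha : StAdd) {v : Cls F} (h : PP F v) : PP F (-v) := by
  have := (h.rot ha).tw ha
  rwa [show (-(om ^ 2 * ((om * v.1, v.2) : Cls F).1, ((om * v.1, v.2) : Cls F).2) : Cls F) = -v
    from Prod.ext (by simp only [Prod.fst_neg]; linear_combination -v.1 * om_cube) rfl] at this

theorem PP.hdg (hm : StMem) {v : Cls F} (h : PP F v) : Hdg v :=
  let ⟨c, _, E, k⟩ := h
  k.2 ▸ (hm c E.isMF).2

theorem sys (ha : StAdd) (hm : StMem) (ho : StOpn) (hc : StCls) (hs : StSw) (hb : StBase) :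
    Sys PP where
  opn := ho
  cls := hc
  hdg _ _ h := h.hdg hm
  sw := hs
  rot _ _ h := h.rot ha
  neg _ _ h := h.neg ha
  base := hb

/-- a labelled cubic carries a projective surface of matrix factorizations -/
theorem exists_cf (hy : Sys PP) (hc : CHAIN) (he : ENTRY) (hf : StFam) (h : Per.Sm F) {d : ℤ}
    (h1 : Lab F d) (h2 : Lat.Adm d) (h3 : 6 < d) :
    ∃ (c : Cu F) (φ : ℝ) (v : Cls F) (C : Cf F), Node v ∧ C.All (QQ c φ v) := by
  obtain ⟨v, k1, k2⟩ := he F h d h1 h2 h3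
  obtain ⟨c, φ, E, k⟩ := hc PP hy F h v k1 k2
  obtain ⟨C, hC⟩ := hf F c φ v E k1 k
  exact ⟨c, φ, v, C, k1, hC⟩

end Vale.Agent.P287T.Top
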