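import Vale.Agent.P287T.Top.Defs
import Vale.Agent.P287T.Stm
import Vale.Agent.P287Q.Top.Fin
import Vale.Agent.P287Q.D.Main
import Vale.Agent.P287Q.Cub.Ex4

/-!
# The theorem from the four blocks
-/

universe w w'

namespace Vale.Agent.P287T.Top

open P269.Hdg P287Q P287Q.Cub P287T.Per

/-- **FINAL**: a realised node gives the K3 surface and the equivalence. -/
def FINAL (P : ∀ F : MP 5, Cls F → Prop) : Prop :=
  ∀ (F : MP 5) [Fact (F.IsHomogeneous 3)], Sm F → ∀ v : Cls F, Node v → P F v →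
    Stm.KuK3.{w, w'} F

theorem lab {F : MP 5} (hF : F.IsHomogeneous 3) (hs : Stm.IsSmoothForm F)
    (hr : Stm.IsRationalForm F) : ∃ d, Lab F d ∧ Lat.Adm d ∧ 6 < d := by
  obtain ⟨b⟩ := rat hF hr
  obtain ⟨d, h1, h2, -⟩ := P287Q.Top.fin F hF hs b
  have k2 : d ≠ 2 := fun e => (D.d26 F hF hs).1 (e ▸ h1)
  have k6 : d ≠ 6 := fun e => (D.d26 F hF hs).2 (e ▸ h1)
  exact ⟨d, h1, h2, by have := h2.1; have := h2.2.1; omega⟩

theorem glue {P : ∀ F : MP 5, Cls F → Prop} (sys : Sys P) (hc : CHAIN) (he : ENTRY)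
    (hf : FINAL.{w, w'} P) (F : MP 5) [h : Fact (F.IsHomogeneous 3)] (hs : Stm.IsSmoothForm F)
    (hr : Stm.IsRationalForm F) : Stm.KuK3.{w, w'} F := by
  obtain ⟨d, h1, h2, h3⟩ := lab h.out hs hr
  obtain ⟨v, hv, hh⟩ := he F ⟨h.out, hs⟩ d h1 h2 h3
  exact hf F ⟨h.out, hs⟩ v hv (hc P sys F ⟨h.out, hs⟩ v hv hh)

end Vale.Agent.P287T.Top
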