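import Vale.Agent.P287T.Au.Alg
import Vale.Agent.P287T.Gv.Tst
import Vale.Agent.P287T.Top.Glue

/-!
# The algebraic side for a family of a nodal class
-/

set_option linter.unusedVariables false

universe w w'

noncomputable section

namespace Vale.Agent.P287T.Top

open CategoryTheory Limits Module MvPolynomial P287T.Cy P287T.Au P287T.Rr P287T.Cl P287T.G3
  P287T.Sw P287Z.O

variable {F : S6}

/-- objects which behave like line bundles on the surface -/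
structure LbO (C : Cf F) (G : HM F) : Prop where
  lb : Lb (ob C) G
  chi : P294.chi G G = 2

/-- on every fibre the maps `a j` satisfy the same relations as the columns of `f` -/
def Rat (C : Cf F) {G' G : HM F} {ι κ : Type} [Fintype κ] (a : κ → (G' ⟶ G))
    (f : Matrix ι κ (MvPolynomial (Fin C.ν) ℂ)) : Prop :=
  ∀ (x : Mem C) (c : κ → ℂ), (∀ g : G ⟶ ob C x, (∑ j, c j • a j) ≫ g = 0) ↔
    (f.map (eval x.1.1)).mulVec c = 0

/-- the objects of the sheaves `𝒪(-m)` and of the images of the matrices of rank one -/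
def Lb3 (C : Cf F) : Prop := ∃ G : ℤ → HM F, (∀ m, LbO C (G m)) ∧
  (∀ m, ∃ a : Fin C.ν → (G (m + 1) ⟶ G m), Rat C a (Matrix.of fun (_ : Unit) j => X j)) ∧
  ∀ {ι κ : Type} [Fintype ι] [Fintype κ] (n : ℕ) (f : Matrix ι κ (MvPolynomial (Fin C.ν) ℂ)),
    (∀ i j, (f i j).IsHomogeneous n) → (∀ z ∈ C.Z, (f.map (eval z)).rank = 1) →
    ∀ m : ℤ, ∃ (L : HM F) (a : κ → (G (m + n) ⟶ L)), LbO C L ∧ Rat C a f

theorem orb_iso {ι : Type} [Fintype ι] [DecidableEq ι] {p : ι → ℤ} {O : Set (Matrix ι ι S6)}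
    (h : Orb F p O) {d d' : Matrix ι ι S6} (hd : d ∈ O) (hd' : d' ∈ O) :
    Nonempty (ofRaw (h.mf d hd) ≅ ofRaw (h.mf d' hd')) := by
  obtain ⟨g, hg, g', hg', h1, h2, h3⟩ := (h.conj d hd d').1 hd'
  have h4 : d * g' = g' * d' := by
    rw [← Matrix.one_mul (d * g'), ← h2, Matrix.mul_assoc, ← Matrix.mul_assoc g, h3,
      Matrix.mul_assoc, h1, Matrix.mul_one]
  refine (iso_iff _ _).2 ⟨g, ⟨hg, h3.symm⟩, g', ⟨hg', h4⟩, ?_, ?_⟩
  · exact (sub_eq_zero.2 h2).symm ▸ zero_mem _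
  · exact (sub_eq_zero.2 h1).symm ▸ zero_mem _

theorem hd_gmf {m n : ℕ} (E : V.GMF F m) (E' : V.GMF F n) (k : ℤ) :
    hd (ofGMF E) (ofGMF E') k = finrank ℂ (Fm.Hm E E' k) := finrank_sh _ _ k

theorem kil_iff {m n r : ℕ} {G' : V.GMF F m} {G : V.GMF F n} (U : V.GMF F r)
    {a : Matrix (Fin n) (Fin m) S6} (ha : a ∈ ZZ G'.p G'.d G.p G.d 0) :
    (∀ g : ofGMF G ⟶ ofGMF U, mkR (E := ofGMF G') (F := ofGMF G) a ha ≫ g = 0) ↔
      Fm.Kil G' G U a := by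
  constructor
  · intro h φ hφ
    have h1 := (mem_Z0_iff _ _ _).1 ((cl_iff G U φ).1 hφ)
    exact (nh_iff _ _ _).2 ((mem_B0_iff _ _ _).2 ((mkR_eq_zero
      (ZZ0_mul (E := ofGMF G') h1 ha)).1 (h (mkR φ h1))))
  · intro h g
    obtain ⟨φ, hφ, rfl⟩ := exists_mkR g
    exact (mkR_eq_zero (ZZ0_mul (E := ofGMF G') hφ ha)).2 ((mem_B0_iff _ _ _).1 ((nh_iff _ _ _).1
      (h φ ((cl_iff G U φ).2 ((mem_Z0_iff _ _ _).2 hφ)))))

section

variable [Fact (F.IsHomogeneous 3)] {C : Cf F} (P : Pkg C)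

theorem pkg_iso (x : Mem C) : Nonempty (ofGMF (P.U x.1.1) ≅ ob C x) := by
  obtain ⟨d, hd, h, e⟩ := P.rel _ x.2.1
  obtain ⟨a⟩ := orb_iso (C.orb _ x.2.1) hd x.2.2
  rw [e]
  exact ⟨toGMFIso (ofRaw h) ≪≫ a⟩

theorem lbO_of (c : Cu F) (hu : ∀ v ∈ C.Z, Fm.Pt C.I v) {n : ℕ} {G : V.GMF F n}
    (h1 : Fm.LbU C.I (r := fun _ => Fintype.card C.ι) P.U G) (h2 : Fm.Sph G) :
    LbO C (ofGMF G) := by
  refine ⟨⟨fun x k hk => ?_, fun x => ?_⟩, ?_⟩
  · obtain ⟨a⟩ := pkg_iso P x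
    have := (h1 _ (hu _ x.2.1)).1 k hk
    exact (cy2 c).fr_zero.1 ((hd_iso (Iso.refl _) a k).symm.trans
      ((hd_gmf _ _ k).trans finrank_zero_of_subsingleton))
  · obtain ⟨a⟩ := pkg_iso P x
    exact (hd_zero _ _).symm.trans ((hd_iso (Iso.refl _) a 0).symm.trans
      ((hd_gmf _ _ 0).trans (h1 _ (hu _ x.2.1)).2))
  · rw [chi_window fun k hk => by rw [hd_gmf, h2, if_neg (by omega)], hd_gmf, hd_gmf, hd_gmf, h2,
      h2, h2]
    simp

theorem rat_of (hu : ∀ v ∈ C.Z, Fm.Pt C.I v) {m n : ℕ} {G' : V.GMF F m} {G : V.GMF F n}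
    {ι κ : Type} [Fintype κ] {f : Matrix ι κ (MvPolynomial (Fin C.ν) ℂ)}
    (h : Fm.Cols C.I (r := fun _ => Fintype.card C.ι) P.U G' G f) :
    ∃ a : κ → (ofGMF G' ⟶ ofGMF G), Rat C a f := by
  obtain ⟨a, h1, h2⟩ := h
  have h3 := fun j => (mem_Z0_iff _ _ _).1 ((cl_iff G' G _).1 (h1 j))
  refine ⟨fun j => mkR (a j) (h3 j), fun x c => ?_⟩
  obtain ⟨e⟩ := pkg_iso P x
  have h4 : ∑ j, c j • a j ∈ ZZ G'.p G'.d G.p G.d 0 :=
    Submodule.sum_mem _ fun j _ => Submodule.smul_mem _ _ (h3 j)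
  have h5 : ∑ j, c j • mkR (a j) (h3 j) = mkR (E := ofGMF G') (F := ofGMF G) _ h4 := by
    have := map_sum (zz0 (ofGMF G') (ofGMF G)) (fun j => c j • ⟨a j, h3 j⟩) Finset.univ
    simp only [map_smul] at this
    exact this.symm.trans (mkR_congr (Subtype.prop _) _ (Submodule.coe_sum _ _ _))
  rw [h5, ← h2 _ (hu _ x.2.1) c, ← kil_iff _ h4]
  refine ⟨fun h g => ?_, fun h g => ?_⟩
  · rw [← cancel_mono e.hom, Category.assoc, h, zero_comp]
  · rw [← cancel_mono e.inv, Category.assoc, h, zero_comp]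

theorem lb3_of (c : Cu F) (hu : ∀ v, Fm.Pt C.I v ↔ v ∈ C.Z)
    (h : Fm.LbOut C.I (r := fun _ => Fintype.card C.ι) P.U) : Lb3 C := by
  obtain ⟨g, G, h1, h2, h3⟩ := h
  have hu' := fun v hv => (hu v).2 hv
  refine ⟨fun m => ofGMF (G m), fun m => lbO_of P c hu' (h1 m).1 (h1 m).2,
    fun m => rat_of P hu' (h2 m), fun n f k1 k2 m => ?_⟩
  obtain ⟨s, L, k3, k4, k5⟩ := h3 n f k1 (fun v hv => k2 v ((hu v).1 hv)) m
  obtain ⟨a, ha⟩ := rat_of P hu' k5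
  exact ⟨ofGMF L, a, lbO_of P c hu' k3 k4, ha⟩

theorem span_of (c : Cu F) (h : ∀ {n : ℕ} (E : V.GMF F n),
    (∀ v ∈ C.Z, ∀ k, Subsingleton (Fm.Hm (P.U v) E k)) → V.Nh E E 1) : Span (ob C) := by
  intro Y hY
  refine IsZero.of_iso ((isZero_iff _).2 ((nh_iff _ _ _).1 (h (toGMF Y) fun v hv k => ?_)))
    (toGMFIso Y).symm
  obtain ⟨d, hd'⟩ := (C.orb v hv).ne
  obtain ⟨a⟩ := pkg_iso P ⟨(v, d), hv, hd'⟩
  have := finite_HH (P.U v).p (P.U v).d (toGMF Y).p (toGMF Y).d (3 * k)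
  exact finrank_zero_iff.1 ((hd_gmf _ _ k).symm.trans ((hd_iso a (toGMFIso Y) k).trans
    (((cy2 c).serre _ _ k).trans (fr_of_zero (hY _ _)))))

end

/-- the inputs of the algebraic side -/
structure Blk : Prop where
  hrr : HRR
  per : Per.StPer
  mem : StMem
  lat : StLat
  add : StAdd
  et : StEt
  str : Sx.StStrict
  ker : StKer
  surf : StSurf
  cy : StCy
  main : StMain.{1}
  sp : StSp.{1}
  o3 : StO3.{1}
  h1 : StH1.{1}

theorem chg_ne {c : Cu F} {φ : ℝ} {v : Cls F} {C : Cf F} (hv : Node v) (h : C.All (QQ c φ v)) :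
    chg C.p ≠ 0 := by
  refine (Gv.zE_of h).trans_ne (mul_ne_zero c0_ne fun e => ?_)
  have := hv.big
  rw [e, map_zero] at this
  norm_num at this

namespace Blk

variable (B : Blk) {c : Cu F} {φ : ℝ} {v : Cls F} {C : Cf F} (hv : Node v)
  (h : C.All (QQ c φ v))
include B hv h

theorem hasOut : HasOut C :=
  Gv.exists_out c.hom C (Gv.tst_of B.hrr B.per B.mem B.lat B.add c hv.prim h) B.et B.str

theorem pkg [Fact (F.IsHomogeneous 3)] : Nonempty (Pkg C) :=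
  exists_pkg B.et B.str B.ker (sm_ne c.sm) C (Gv.tst_tr B.hrr B.per B.mem B.lat B.add c hv.prim h)

theorem h1p : Kx.H1p C.I := by
  have : Fact (F.IsHomogeneous 3) := ⟨c.hom⟩
  obtain ⟨P⟩ := B.pkg hv h
  exact P.h1p B.surf B.cy B.main B.h1 c.sm (chg_ne hv h)

theorem lb3 : Lb3 C := by
  have : Fact (F.IsHomogeneous 3) := ⟨c.hom⟩
  obtain ⟨P⟩ := B.pkg hv h
  exact lb3_of P c (B.surf F C).2 (P.lbOut B.surf B.cy B.main B.h1 B.o3 c.sm (chg_ne hv h))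

theorem span : Span (ob C) := by
  have : Fact (F.IsHomogeneous 3) := ⟨c.hom⟩
  obtain ⟨P⟩ := B.pkg hv h
  exact span_of P c fun E => P.span B.surf B.cy B.main B.sp c.sm E

omit hv h in
theorem stSpan : StSpan := fun _ _ _ _ _ hv h => B.span hv h

omit hv h in
/-- **FINAL** -/
theorem final (hf : StFam) (hm : StMain.{w}) (hσ : Kx.StSym) (h3 : Kx.StK3)
    (hd : StDgk.{w, w'}) : FINAL.{w, w'} PP := by
  rintro F _ - v hv ⟨c, φ, E, hE⟩
  obtain ⟨C, h⟩ := hf F c φ v E hv hE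
  obtain ⟨P⟩ := B.pkg hv h
  exact P.kuK3 B.surf B.cy B.main hm B.h1 hσ h3 hd c.sm (chg_ne hv h)

end Blk

end Vale.Agent.P287T.Top
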