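import Vale.Agent.P287T.Top.Hg
import Vale.Agent.P287T.Df.Gq
import Vale.Agent.P287T.Df.Kur
import Vale.Agent.P287T.Df.Mod
import Vale.Agent.P287T.Au.Srf
import Vale.Agent.P287T.Oc.Fin
import Vale.Agent.P287T.Cl.Mem
import Vale.Agent.P287T.Cl.Add
import Vale.Agent.P287T.Cl.Lat2
import Vale.Agent.P287T.Per.Main

/-!
# The projective moduli surface of a node, and the switch
-/

noncomputable section

namespace Vale.Agent.P287T.Top

open CategoryTheory P287T.Cy P287T.Au P287T.Rr P287T.Cl P287T.G3 P287T.Sw P287T.Df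

theorem stFam_of (hr : HRR) (hp : StProj) : StFam := by
  intro F c φ v E hv hE
  have D := clD hr stMem stAdd c
  have G := gd hr stMem stAdd Per.stPer slice Oc.opO Oc.prpP c hv.prim hv.iso φ
  obtain ⟨M⟩ := stMod F _ G
  obtain ⟨x, -⟩ := M.onto E hE
  obtain ⟨S, hS⟩ := srf_of_mdu (hg_of_isHomogeneous c.hom)
    (fun e => one_ne_zero (congrFun (c.sm 1 fun j => by rw [e, map_zero, map_zero]) 0)) M x
    (fun _ _ => G.iso) (fun E h k => (finrank_sh E E k).trans (dimQ D c hv.prim hv.iso h k))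
    (fun E E' h h' hn k => (hom_sh_zero_iff E E' k).2 (ortQ D c hv.prim hv.iso h h' hn k))
    (QQ c φ v) fun E h => ⟨E.isMF, h⟩
  exact hp F S _ hS

theorem stSw_of (hr : HRR) (hf : StFam) (hs : StSpan) (hp : StPsi) : StSw := by
  rintro F - o n s ⟨c, φ, E, hE⟩
  have D := clD hr stMem stAdd c
  obtain ⟨C, hC⟩ := hf F c φ o E s.no hE
  obtain ⟨x⟩ := mem_ne C
  obtain ⟨h1, h2, h3, h4⟩ := swHyp_sum s (mk_symm c ((stLat c).prim _ s.no.mem).1)
  obtain ⟨G, k1, k2⟩ := hp F c φ o C s.no hC _ h1 h2 h3 h4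
  obtain ⟨E', ψ, k3⟩ := D.sw c s x (qe_ob hC) (hs F c φ o C s.no hC) k2 k1
  exact ⟨c, ψ, E', k3⟩

end Vale.Agent.P287T.Top
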