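import Vale.Agent.P287T.Top.Plug
import Vale.Agent.P287T.Fm.MainC
import Vale.Agent.P287T.Q0.MainB
import Vale.Agent.P287T.Psi.Fin

/-!
# Rational cubic fourfolds have the Kuznetsov component of a K3 surface
-/

universe w w'

namespace Vale.Agent.P287T.Top

theorem main (F : MvPolynomial (Fin 6) ℂ) [Fact (F.IsHomogeneous 3)] (hs : Stm.IsSmoothForm F)
    (hr : Stm.IsRationalForm F) : Stm.KuK3.{w, w'} F :=
  plug Fm.UnC.stMain Fm.UnC.stMain Q0.MB.stH1D (fun _ c C G => Psi.typ_of_hol c C G) Psi.Fn.adj0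
    Psi.CmB.cmp F hs hr

end Vale.Agent.P287T.Top
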