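import Vale.Agent.P287T.Top.Pre
import Vale.Agent.P287T.Et.Main
import Vale.Agent.P287T.Sx.Main
import Vale.Agent.P287T.Kx.Main
import Vale.Agent.P287T.Kr.Main
import Vale.Agent.P287T.Fm.Dt2
import Vale.Agent.P287T.Fm.Dt3
import Vale.Agent.P287T.Fm.O5
import Vale.Agent.P287T.Fm.Main0
import Vale.Agent.P287T.Bs.Main
import Vale.Agent.P287T.Psi.Fin0

/-!
# The theorem from the last open steps
-/

universe w w'

namespace Vale.Agent.P287T.Top

open P287T.Cy P287T.Au P287T.Rr P287T.Cl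

theorem plug_blk (hm : StMain.{1}) (h1 : Fm.Dt.StH1D.{1}) : Blk :=
  blk_of hrr Et.stEt Sx.stStrict Kr.stKer hm (fun _ _ _ _ _ _ => Fm.main_span) Fm.stO3
    (Fm.Dt.stH1_of h1)

theorem plug (hm₁ : StMain.{1}) (hm : StMain.{w}) (h1 : Fm.Dt.StH1D.{1})
    (typ : ∀ (W : S6) (c : Cu W) (C : Cf W) (G : Psi.Gf C), G.U.Hol → G.Typ c) (adj : Psi.StAdj)
    (cmp : Psi.StCmpK) (F : S6) [Fact (F.IsHomogeneous 3)] (hs : Stm.IsSmoothForm F)
    (hr : Stm.IsRationalForm F) : Stm.KuK3.{w, w'} F :=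
  main_of (plug_blk hm₁ h1) Pj.stProj (Psi.Fn.psi_of (plug_blk hm₁ h1) typ adj cmp)
    (Bs.stBase stLat stMem hrr) hm stSym Kx.stK3 Fm.Dt.stDgk F hs hr

end Vale.Agent.P287T.Top
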