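import Vale.Agent.P287T.Top.Alg
import Vale.Agent.P287T.Top.Fam
import Vale.Agent.P287T.Ch.Chain
import Vale.Agent.P287T.En.Main
import Vale.Agent.P287T.Kr.Surf
import Vale.Agent.P287T.Fm.Dual

/-!
# The theorem from the remaining blocks
-/

universe w w'

namespace Vale.Agent.P287T.Top

open P287T.Cy P287T.Au P287T.Rr P287T.Cl

theorem stSurf : StSurf := fun _ C => ⟨Kr.surf C, Kr.pt_iff C⟩

theorem stCy : StCy := fun _ h hs => haveI := Fact.mk h; Fm.cy hs

theorem blk_of (hr : HRR) (he : StEt) (ht : Sx.StStrict) (hk : StKer) (hm : StMain.{1})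
    (hp : StSp.{1}) (h3 : StO3.{1}) (h1 : StH1.{1}) : Blk :=
  ⟨hr, Per.stPer, stMem, stLat, stAdd, he, ht, hk, stSurf, stCy, hm, hp, h3, h1⟩

theorem main_of (B : Blk) (hj : StProj) (hψ : StPsi) (hb : StBase) (hm : StMain.{w})
    (hσ : Kx.StSym) (h3 : Kx.StK3) (hd : StDgk.{w, w'}) (F : S6) [Fact (F.IsHomogeneous 3)]
    (hs : Stm.IsSmoothForm F) (hr : Stm.IsRationalForm F) : Stm.KuK3.{w, w'} F :=
  glue (sys stAdd stMem (Oc.stOpn Df.kur stMem) Oc.stCls
      (stSw_of B.hrr (stFam_of B.hrr hj) B.stSpan hψ) hb) Ch.chain En.entry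
    (B.final (stFam_of B.hrr hj) hm hσ h3 hd) F hs hr

end Vale.Agent.P287T.Top
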