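import Vale.Agent.P287T.Oc.Fin
import Vale.Agent.P287T.Df.Gq
import Vale.Agent.P287T.Df.Mod
import Vale.Agent.P287T.Df.Kur
import Vale.Agent.P287T.Au.Srf
import Vale.Agent.P287T.Cl.Lat1

/-!
# The moduli surface and the switch, in the shape used by the propagation
-/

open CategoryTheory

namespace Vale.Agent.P287T.Top

open P287T.Cy P287T.Rr P287T.G3 P287T.Cl P287T.Sw P287T.Au P287T.Df

theorem stFam (hr : HRR) (hm : StMem) (hper : Per.StPer) (hp : StProj) : StFam := by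
  intro F c φ v E hv hE
  have D := clD hr hm stAdd c
  have g := gd hr hm stAdd hper slice Oc.opO Oc.prpP c hv.prim hv.iso φ
  obtain ⟨M⟩ := stMod F _ g
  obtain ⟨x, -⟩ := M.onto E hE
  obtain ⟨S, hS⟩ := srf_of_mdu (hg_of_isHomogeneous c.hom) (fun h => by
      have := c.sm (fun _ => 1) (fun i => by rw [h, map_zero, map_zero])
      exact one_ne_zero (congrFun this 0)) M x (fun _ _ => g.iso)
    (fun X hX k => (hd_eq X X k).trans (dimQ D c hv.prim hv.iso hX k))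
    (fun X Y hX hY hn k => (hom_sh_zero_iff X Y k).2 (ortQ D c hv.prim hv.iso hX hY hn k))
    (QQ c φ v) fun X hX => ⟨X.isMF, hX⟩
  exact hp F S _ hS

theorem stSw (hr : HRR) (hm : StMem) (hf : StFam) (hs : StSpan) (hp : StPsi) : StSw := by
  rintro F - o n s ⟨c, φ, E, hE⟩
  obtain ⟨C, hC⟩ := hf F c φ o E s.no hE
  obtain ⟨h1, h2, h3, h4⟩ := swHyp_sum s (mk_symm c (muk_prim c o s.no.mem).1)
  obtain ⟨G, hG, L⟩ := hp F c φ o C s.no hC _ h1 h2 h3 h4
  obtain ⟨x⟩ := mem_ne C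
  obtain ⟨X, ψ, h⟩ := (clD hr hm stAdd c).sw c s x (qe_ob hC) (hs F c φ o C s.no hC) L hG
  exact ⟨c, ψ, X, h⟩

end Vale.Agent.P287T.Top
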